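import Vale.Agent.P154.NegTrans.Data.BSteps9
import Vale.Agent.P154.NegTrans.Data.BStates

/-!
Generations up to 121 of the computation B.
-/

set_option maxRecDepth 100000

namespace Vale.Agent.P154.NegTrans

open D4

theorem runB13 : cB1Cfg.run 10 sB12 = (sB13, true) := by decide +kernel

end Vale.Agent.P154.NegTrans
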