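import Vale.Agent.P154.NegTrans.Data.BSteps2
import Vale.Agent.P154.NegTrans.Data.BStates

/-!
Passage to lattice 1 of the computation B.
-/

set_option maxRecDepth 100000

namespace Vale.Agent.P154.NegTrans

open D4

theorem runB6 : bB1Cfg.step sB5 = (sB6, true) := by decide +kernel

theorem validB6 : latB1.valid sB6 = true := by decide +kernel

end Vale.Agent.P154.NegTrans
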