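import Vale.Agent.P154.NegTrans.Data.CSteps1
import Vale.Agent.P154.NegTrans.Data.CStates

/-!
Generations up to 50 of the computation C.
-/

set_option maxRecDepth 100000

namespace Vale.Agent.P154.NegTrans

open D4

theorem runC5 : cC0Cfg.run 10 sC4 = (sC5, true) := by decide +kernel

end Vale.Agent.P154.NegTrans
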