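import Vale.Agent.P154.NegTrans.Data.CSteps2
import Vale.Agent.P154.NegTrans.Data.CStates

/-!
Passage to lattice 1 of the computation C.
-/

set_option maxRecDepth 100000

namespace Vale.Agent.P154.NegTrans

open D4

theorem runC6 : bC1Cfg.step sC5 = (sC6, true) := by decide +kernel

theorem validC6 : latC1.valid sC6 = true := by decide +kernel

end Vale.Agent.P154.NegTrans
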