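import Vale.Agent.P154.NegTrans.Data.DLat1
import Vale.Agent.P154.NegTrans.Data.DStates

/-!
Generations up to 40 of the computation D.
-/

set_option maxRecDepth 100000

namespace Vale.Agent.P154.NegTrans

open D4

theorem runD4 : cD0Cfg.run 10 sD3 = (sD4, true) := by decide +kernel

end Vale.Agent.P154.NegTrans
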