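import Vale.Agent.P154.NegTrans.Data.ALat1
import Vale.Agent.P154.NegTrans.Data.AStates

/-!
Generations up to 10 of the computation A.
-/

set_option maxRecDepth 100000

namespace Vale.Agent.P154.NegTrans

open D4

/-- All mass at certainty. -/
def sA0 : State :=
  { W := [0, 0, 0, 0, 0,
      0, 0, 0, 0, 0,
      0, 0, 0, 0, 0,
      0, 0, 0, 0, 0,
      0, 0, 0, 0, 0,
      0, 0, 0, 0, 0,
      0, 0, 0, 0, 0,
      0, 0, 0, 0, 0,
      0, 0, 0, 0, 0,
      0, 0, 0, 0, 0,
      0, 0, 0, 0, 0,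
      0, 0, 0, 0, 0,
      0, 0]
    E := 0 }

theorem runA1 : cA0Cfg.run 10 sA0 = (sA1, true) := by decide +kernel

end Vale.Agent.P154.NegTrans
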