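import Vale.Agent.P154.NegTrans.Data.ASteps1
import Vale.Agent.P154.NegTrans.Data.AStates

/-!
Passage to lattice 1 of the computation A.
-/

set_option maxRecDepth 100000

namespace Vale.Agent.P154.NegTrans

open D4

theorem runA5 : bA1Cfg.step sA4 = (sA5, true) := by decide +kernel

theorem validA5 : latA1.valid sA5 = true := by decide +kernel

end Vale.Agent.P154.NegTrans
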